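import Mathlib

namespace Vale.Agent.Results.P160.RowPairLowerBound

open Finset Matrix

/-- Symmetric Boolean matrices: the sample space (true stands for the entry 1, false for the
entry -1). -/
def symm (n : ℕ) : Finset (Matrix (Fin n) (Fin n) Bool) :=
  univ.filter (fun B => Bᵀ = B)

/-- The sign matrix encoded by a Boolean matrix. -/
def signMat {n : ℕ} (B : Matrix (Fin n) (Fin n) Bool) : Matrix (Fin n) (Fin n) ℤ :=
  Matrix.of fun i j => if B i j then 1 else -1

/-- The probability that a uniformly random symmetric sign matrix of size n is singular. -/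
noncomputable def q (n : ℕ) : ℝ :=
  (((symm n).filter (fun B => (signMat B).det = 0)).card : ℝ) / ((symm n).card : ℝ)

theorem mem_symm {n : ℕ} (B : Matrix (Fin n) (Fin n) Bool) :
    B ∈ symm n ↔ ∀ i j, B i j = B j i := by
  unfold symm
  rw [Finset.mem_filter]
  constructor
  · intro h i j
    have h1 := congrFun (congrFun h.2 j) i
    rw [Matrix.transpose_apply] at h1
    exact h1
  · intro h
    refine ⟨Finset.mem_univ _, ?_⟩
    ext i j
    rw [Matrix.transpose_apply]
    exact h j i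

/-- The event that row i equals row j (sign false) or equals minus row j (sign true). -/
def ev (n : ℕ) (σ : Bool) (i j : Fin n) : Finset (Matrix (Fin n) (Fin n) Bool) :=
  (symm n).filter (fun B => ∀ m, B i m = Bool.xor (B j m) σ)

theorem bx1 : ∀ a b c a' b' c' σ : Bool, Bool.xor a a' = Bool.xor b b' → c = Bool.xor c' σ →
    Bool.xor (Bool.xor a b) c = Bool.xor (Bool.xor (Bool.xor a' b') c') σ := by
  decide

theorem bx2 : ∀ a b c : Bool, Bool.xor a c = Bool.xor b c → a = b := by
  decide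

theorem bx3 : ∀ a b σ : Bool, a = Bool.xor b σ ↔ b = Bool.xor a σ := by
  decide

theorem bx4 : ∀ p p' r r' u u' σ : Bool, Bool.xor p u = Bool.xor r u' → p' = r' →
    p = Bool.xor p' σ → r = Bool.xor r' σ → u = u' := by
  decide

theorem bx5 : ∀ a b σ τ : Bool, a = Bool.xor b σ → a = Bool.xor b τ → σ = τ := by
  decide

theorem lower (n : ℕ) (σ : Bool) (i j : Fin n) (hij : i ≠ j) :
    (symm n).card ≤ (ev n σ i j).card * 2 ^ n := by
  classical
  set L : Matrix (Fin n) (Fin n) Bool → (Fin n → Bool) :=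
    fun B m => Bool.xor (B i m) (B j m) with hL
  set B1 : Matrix (Fin n) (Fin n) Bool :=
    Matrix.of fun a b => σ && Bool.xor (decide (a = j)) (decide (b = j)) with hB1
  have hB1s : ∀ a b, B1 a b = B1 b a := by
    intro a b
    rw [hB1]
    simp only [Matrix.of_apply]
    rw [Bool.xor_comm]
  have hB1r : ∀ m, B1 i m = Bool.xor (B1 j m) σ := by
    intro m
    rw [hB1]
    simp only [Matrix.of_apply]
    have h1 : decide (i = j) = false := by simp [hij]
    rw [h1]
    cases σ <;> cases decide (m = j) <;> simp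
  have hfib : ∀ a ∈ (symm n).image L,
      ((symm n).filter (fun B => L B = a)).card ≤ (ev n σ i j).card := by
    intro a ha
    obtain ⟨B0, hB0, rfl⟩ := Finset.mem_image.1 ha
    refine Finset.card_le_card_of_injOn
      (fun B : Matrix (Fin n) (Fin n) Bool =>
        (Matrix.of fun p r => Bool.xor (Bool.xor (B p r) (B0 p r)) (B1 p r) :
          Matrix (Fin n) (Fin n) Bool)) ?_ ?_
    · intro B hB
      rw [Finset.mem_coe, Finset.mem_filter] at hB
      rw [Finset.mem_coe]
      unfold ev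
      rw [Finset.mem_filter]
      have hBs := (mem_symm B).1 hB.1
      have hB0s := (mem_symm B0).1 hB0
      refine ⟨(mem_symm _).2 fun p r => ?_, fun m => ?_⟩
      · simp only [Matrix.of_apply]
        rw [hBs p r, hB0s p r, hB1s p r]
      · have h1 := congrFun hB.2 m
        simp only [Matrix.of_apply]
        exact bx1 _ _ _ _ _ _ _ h1 (hB1r m)
    · intro B _ B' _ h
      ext p r
      have h1 := congrFun (congrFun h p) r
      simp only [Matrix.of_apply] at h1
      exact bx2 _ _ _ (bx2 _ _ _ h1)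
  have h1 := Finset.card_le_mul_card_image (f := L) (symm n) (ev n σ i j).card hfib
  have h2 : ((symm n).image L).card ≤ 2 ^ n := by
    calc ((symm n).image L).card ≤ (univ : Finset (Fin n → Bool)).card :=
          Finset.card_le_card (Finset.subset_univ _)
      _ = 2 ^ n := by simp
  calc (symm n).card ≤ (ev n σ i j).card * ((symm n).image L).card := h1
    _ ≤ (ev n σ i j).card * 2 ^ n := Nat.mul_le_mul_left _ h2

/-- Extension by false of a Boolean function defined off a finite set. -/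
def ext0 {n : ℕ} (U : Finset (Fin n)) (u : {m // m ∉ U} → Bool) (m : Fin n) : Bool :=
  if h : m ∉ U then u ⟨m, h⟩ else false

/-- The symmetric perturbation supported on rows and columns x and y. -/
def dmat {n : ℕ} (x y : Fin n) (ub vb : Fin n → Bool) (a b : Fin n) : Bool :=
  Bool.xor (Bool.xor (decide (a = x) && ub b) (decide (b = x) && ub a))
    (Bool.xor (decide (a = y) && vb b) (decide (b = y) && vb a))

theorem dmat_symm {n : ℕ} (x y : Fin n) (ub vb : Fin n → Bool) (a b : Fin n) :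
    dmat x y ub vb a b = dmat x y ub vb b a := by
  unfold dmat
  rw [Bool.xor_comm (decide (a = x) && ub b), Bool.xor_comm (decide (a = y) && vb b)]

theorem upper (n : ℕ) (σ τ : Bool) (x x' y y' : Fin n) (hxx' : x' ≠ x) (hyy' : y' ≠ y)
    (hxy : x ≠ y) (hx'y : x' ≠ y) (hy'x : y' ≠ x) :
    ((ev n σ x x') ∩ (ev n τ y y')).card * (2 ^ (n - 4)) ^ 2 ≤ (symm n).card := by
  classical
  set U : Finset (Fin n) := {x, x', y, y'} with hU
  have hxU : x ∈ U := by simp [hU]
  have hyU : y ∈ U := by simp [hU]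
  have hW : 2 ^ (n - 4) ≤ Fintype.card ({m // m ∉ U} → Bool) := by
    rw [Fintype.card_fun, Fintype.card_bool]
    apply Nat.pow_le_pow_right (by norm_num)
    have h4 : U.card ≤ 4 := Finset.card_le_four
    have h5 : Fintype.card {m // m ∉ U} = n - U.card := by
      rw [Fintype.card_subtype]
      have h6 : (univ.filter (fun m => m ∉ U)) = Uᶜ := by
        ext m
        simp
      rw [h6, Finset.card_compl, Fintype.card_fin]
    rw [h5]
    omega
  set Ψ : (Matrix (Fin n) (Fin n) Bool × ({m // m ∉ U} → Bool) × ({m // m ∉ U} → Bool)) →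
      Matrix (Fin n) (Fin n) Bool :=
    fun t => Matrix.of fun a b =>
      Bool.xor (t.1 a b) (dmat x y (ext0 U t.2.1) (ext0 U t.2.2) a b) with hΨ
  have hvx : ∀ (ub vb : Fin n → Bool) (m : Fin n), m ∉ U → dmat x y ub vb x m = ub m := by
    intro ub vb m hm
    have h1 : m ≠ x := fun h => hm (h ▸ hxU)
    have h2 : m ≠ y := fun h => hm (h ▸ hyU)
    simp [dmat, h1, h2, hxy]
  have hvx' : ∀ (ub vb : Fin n → Bool) (m : Fin n), m ∉ U → dmat x y ub vb x' m = false := by
    intro ub vb m hm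
    have h1 : m ≠ x := fun h => hm (h ▸ hxU)
    have h2 : m ≠ y := fun h => hm (h ▸ hyU)
    simp [dmat, h1, h2, hxx', hx'y]
  have hvy : ∀ (ub vb : Fin n → Bool) (m : Fin n), m ∉ U → dmat x y ub vb y m = vb m := by
    intro ub vb m hm
    have h1 : m ≠ x := fun h => hm (h ▸ hxU)
    have h2 : m ≠ y := fun h => hm (h ▸ hyU)
    simp [dmat, h1, h2, Ne.symm hxy]
  have hvy' : ∀ (ub vb : Fin n → Bool) (m : Fin n), m ∉ U → dmat x y ub vb y' m = false := by
    intro ub vb m hm
    have h1 : m ≠ x := fun h => hm (h ▸ hxU)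
    have h2 : m ≠ y := fun h => hm (h ▸ hyU)
    simp [dmat, h1, h2, hyy', hy'x]
  have hext : ∀ (u : {m // m ∉ U} → Bool) (w : {m // m ∉ U}), ext0 U u w.1 = u w := by
    intro u w
    unfold ext0
    rw [dif_pos w.2]
  have hcard : (((ev n σ x x') ∩ (ev n τ y y')) ×ˢ
      ((univ : Finset ({m // m ∉ U} → Bool)) ×ˢ (univ : Finset ({m // m ∉ U} → Bool)))).card
      ≤ (symm n).card := by
    refine Finset.card_le_card_of_injOn Ψ ?_ ?_
    · intro t ht
      rw [Finset.mem_coe, Finset.mem_product, Finset.mem_inter] at ht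
      have hB := (mem_symm t.1).1 (Finset.mem_filter.1 ht.1.1).1
      rw [Finset.mem_coe]
      refine (mem_symm _).2 fun a b => ?_
      rw [hΨ]
      simp only [Matrix.of_apply]
      rw [hB a b, dmat_symm]
    · intro t ht t' ht' h
      rw [Finset.mem_coe, Finset.mem_product, Finset.mem_inter] at ht ht'
      have hE1 := (Finset.mem_filter.1 ht.1.1).2
      have hE2 := (Finset.mem_filter.1 ht.1.2).2
      have hE1' := (Finset.mem_filter.1 ht'.1.1).2
      have hE2' := (Finset.mem_filter.1 ht'.1.2).2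
      have hval : ∀ a b, Bool.xor (t.1 a b) (dmat x y (ext0 U t.2.1) (ext0 U t.2.2) a b)
          = Bool.xor (t'.1 a b) (dmat x y (ext0 U t'.2.1) (ext0 U t'.2.2) a b) := by
        intro a b
        have h1 := congrFun (congrFun h a) b
        rw [hΨ] at h1
        simpa only [Matrix.of_apply] using h1
      have hu : t.2.1 = t'.2.1 := by
        funext w
        have h1 := hval x w.1
        have h2 := hval x' w.1
        rw [hvx _ _ _ w.2, hvx _ _ _ w.2, hext, hext] at h1
        rw [hvx' _ _ _ w.2, hvx' _ _ _ w.2, Bool.xor_false, Bool.xor_false] at h2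
        exact bx4 _ _ _ _ _ _ _ h1 h2 (hE1 w.1) (hE1' w.1)
      have hv : t.2.2 = t'.2.2 := by
        funext w
        have h1 := hval y w.1
        have h2 := hval y' w.1
        rw [hvy _ _ _ w.2, hvy _ _ _ w.2, hext, hext] at h1
        rw [hvy' _ _ _ w.2, hvy' _ _ _ w.2, Bool.xor_false, Bool.xor_false] at h2
        exact bx4 _ _ _ _ _ _ _ h1 h2 (hE2 w.1) (hE2' w.1)
      have hB : t.1 = t'.1 := by
        ext a b
        have h1 := hval a b
        rw [hu, hv] at h1
        exact bx2 _ _ _ h1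
      exact Prod.ext hB (Prod.ext hu hv)
  rw [Finset.card_product, Finset.card_product, Finset.card_univ] at hcard
  calc ((ev n σ x x') ∩ (ev n τ y y')).card * (2 ^ (n - 4)) ^ 2
      ≤ ((ev n σ x x') ∩ (ev n τ y y')).card *
        (Fintype.card ({m // m ∉ U} → Bool) * Fintype.card ({m // m ∉ U} → Bool)) := by
        rw [sq]
        exact Nat.mul_le_mul_left _ (Nat.mul_le_mul hW hW)
    _ ≤ (symm n).card := hcard

theorem bonferroni {Ω ι : Type*} [DecidableEq ι] (S : Finset Ω) (P : Finset ι)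
    (pred : ι → Ω → Prop) [∀ a ω, Decidable (pred a ω)] :
    (2 : ℤ) * ∑ a ∈ P, ((S.filter (pred a)).card : ℤ)
      ≤ 2 * ((S.filter (fun ω => ∃ a ∈ P, pred a ω)).card : ℤ)
        + ∑ a ∈ P, ∑ b ∈ P.erase a, ((S.filter (fun ω => pred a ω ∧ pred b ω)).card : ℤ) := by
  classical
  set χ : ι → Ω → ℤ := fun a ω => if pred a ω then 1 else 0 with hχ
  have hχsq : ∀ a ω, χ a ω * χ a ω = χ a ω := by
    intro a ω
    simp only [hχ]
    split_ifs <;> simp
  have hχ0 : ∀ a ω, 0 ≤ χ a ω := by
    intro a ω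
    simp only [hχ]
    split_ifs <;> norm_num
  have hcard : ∀ a, ((S.filter (pred a)).card : ℤ) = ∑ ω ∈ S, χ a ω := by
    intro a
    rw [Finset.card_filter]
    push_cast
    rfl
  have hcard2 : ∀ a b, ((S.filter (fun ω => pred a ω ∧ pred b ω)).card : ℤ)
      = ∑ ω ∈ S, χ a ω * χ b ω := by
    intro a b
    rw [Finset.card_filter]
    push_cast
    refine Finset.sum_congr rfl fun ω _ => ?_
    simp only [hχ]
    by_cases h1 : pred a ω <;> by_cases h2 : pred b ω <;> simp [h1, h2]
  have hun : ((S.filter (fun ω => ∃ a ∈ P, pred a ω)).card : ℤ)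
      = ∑ ω ∈ S, (if ∃ a ∈ P, pred a ω then (1 : ℤ) else 0) := by
    rw [Finset.card_filter]
    push_cast
    rfl
  have hpt : ∀ ω ∈ S, 2 * ∑ a ∈ P, χ a ω
      ≤ 2 * (if ∃ a ∈ P, pred a ω then (1 : ℤ) else 0)
        + ∑ a ∈ P, ∑ b ∈ P.erase a, χ a ω * χ b ω := by
    intro ω _
    have hc : ∑ a ∈ P, ∑ b ∈ P.erase a, χ a ω * χ b ω
        = (∑ a ∈ P, χ a ω) ^ 2 - ∑ a ∈ P, χ a ω := by
      have h1 : ∀ a ∈ P, ∑ b ∈ P.erase a, χ a ω * χ b ω
          = χ a ω * (∑ b ∈ P, χ b ω) - χ a ω := by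
        intro a ha
        rw [← Finset.mul_sum, ← Finset.add_sum_erase P _ ha, mul_add, hχsq]
        ring
      rw [Finset.sum_congr rfl h1, Finset.sum_sub_distrib, ← Finset.sum_mul, sq]
    rw [hc]
    have hc0 : 0 ≤ ∑ a ∈ P, χ a ω := Finset.sum_nonneg fun a _ => hχ0 a ω
    by_cases hex : ∃ a ∈ P, pred a ω
    · rw [if_pos hex]
      have h2 : 0 ≤ (∑ a ∈ P, χ a ω - 1) * (∑ a ∈ P, χ a ω - 2) := by
        rcases le_or_gt (∑ a ∈ P, χ a ω) 1 with h | h
        · nlinarith
        · have h3 : 2 ≤ ∑ a ∈ P, χ a ω := h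
          nlinarith
      nlinarith
    · rw [if_neg hex]
      have h2 : ∑ a ∈ P, χ a ω = 0 := by
        apply Finset.sum_eq_zero
        intro a ha
        simp only [hχ]
        rw [if_neg]
        intro hp
        exact hex ⟨a, ha, hp⟩
      rw [h2]
      norm_num
  have hsum := Finset.sum_le_sum hpt
  rw [Finset.sum_add_distrib, ← Finset.mul_sum, ← Finset.mul_sum] at hsum
  have hsum1 : ∑ ω ∈ S, ∑ a ∈ P, χ a ω = ∑ a ∈ P, ((S.filter (pred a)).card : ℤ) := by
    rw [Finset.sum_comm]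
    exact Finset.sum_congr rfl fun a _ => (hcard a).symm
  have hsum2 : ∑ ω ∈ S, ∑ a ∈ P, ∑ b ∈ P.erase a, χ a ω * χ b ω
      = ∑ a ∈ P, ∑ b ∈ P.erase a,
        ((S.filter (fun ω => pred a ω ∧ pred b ω)).card : ℤ) := by
    rw [Finset.sum_comm]
    refine Finset.sum_congr rfl fun a _ => ?_
    rw [Finset.sum_comm]
    exact Finset.sum_congr rfl fun b _ => (hcard2 a b).symm
  rw [hsum1, hsum2, ← hun] at hsum
  exact hsum

/-- Pairs of row indices in increasing order. -/
def pairs (n : ℕ) : Finset (Fin n × Fin n) := univ.filter (fun p => p.1 < p.2)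

theorem card_pairs (n : ℕ) : (pairs n).card * 2 = n * (n - 1) := by
  unfold pairs
  rw [Finset.card_filter, Fintype.sum_prod_type_right]
  have h1 : ∀ y : Fin n, (∑ x : Fin n, if x < y then 1 else 0) = (y : ℕ) := by
    intro y
    rw [← Finset.card_filter]
    have h2 : (univ.filter (fun x : Fin n => x < y)) = Finset.Iio y := by
      ext x
      simp
    rw [h2, Fin.card_Iio]
  rw [Finset.sum_congr rfl fun y _ => h1 y, Fin.sum_univ_eq_sum_range (fun i => i) n,
    Finset.sum_range_id_mul_two]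

theorem ev_comm (n : ℕ) (σ : Bool) (i j : Fin n) : ev n σ i j = ev n σ j i := by
  unfold ev
  refine Finset.filter_congr fun B _ => ?_
  constructor <;> intro h m <;> exact (bx3 _ _ _).1 (h m)

theorem filter_and_ev (n : ℕ) (σ τ : Bool) (i j k l : Fin n) :
    (symm n).filter (fun B => (∀ m, B i m = Bool.xor (B j m) σ) ∧
      (∀ m, B k m = Bool.xor (B l m) τ)) = ev n σ i j ∩ ev n τ k l := by
  unfold ev
  ext B
  simp only [Finset.mem_filter, Finset.mem_inter]
  tauto

/-- The index set of the events: a pair of rows and a sign. -/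
def events (n : ℕ) : Finset ((Fin n × Fin n) × Bool) := pairs n ×ˢ (univ : Finset Bool)

theorem card_events (n : ℕ) : (events n).card = n * (n - 1) := by
  unfold events
  rw [Finset.card_product, Finset.card_univ, Fintype.card_bool, card_pairs]

theorem pair_upper (n : ℕ) (c d : (Fin n × Fin n) × Bool) (hc : c ∈ events n)
    (hd : d ∈ events n) (hcd : d ≠ c) :
    ((symm n).filter (fun B => (∀ m, B c.1.1 m = Bool.xor (B c.1.2 m) c.2) ∧
      (∀ m, B d.1.1 m = Bool.xor (B d.1.2 m) d.2))).card * (2 ^ (n - 4)) ^ 2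
      ≤ (symm n).card := by
  obtain ⟨⟨i, j⟩, σ⟩ := c
  obtain ⟨⟨k, l⟩, τ⟩ := d
  have hij : i < j := (Finset.mem_filter.1 (Finset.mem_product.1 hc).1).2
  have hkl : k < l := (Finset.mem_filter.1 (Finset.mem_product.1 hd).1).2
  show ((symm n).filter (fun B => (∀ m, B i m = Bool.xor (B j m) σ) ∧
      (∀ m, B k m = Bool.xor (B l m) τ))).card * (2 ^ (n - 4)) ^ 2 ≤ (symm n).card
  by_cases hpair : (k, l) = (i, j)
  · have hk : k = i := congrArg Prod.fst hpair
    have hl : l = j := congrArg Prod.snd hpair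
    have hστ : τ ≠ σ := by
      intro h
      exact hcd (by rw [hk, hl, h])
    have hempty : (symm n).filter (fun B => (∀ m, B i m = Bool.xor (B j m) σ) ∧
        (∀ m, B k m = Bool.xor (B l m) τ)) = ∅ := by
      rw [Finset.filter_eq_empty_iff]
      intro B _ hB
      have h1 := hB.1 i
      have h2 := hB.2 i
      rw [hk, hl] at h2
      exact hστ (bx5 _ _ _ _ h2 h1)
    rw [hempty, Finset.card_empty, zero_mul]
    exact Nat.zero_le _
  · rw [filter_and_ev]
    by_cases h1 : i = k
    · have hjl : j ≠ l := by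
        intro h
        exact hpair (by rw [h1, h])
      have h := upper n σ τ j i l k (ne_of_lt hij) (ne_of_lt hkl) hjl
        (by rw [h1]; exact ne_of_lt hkl) (by rw [← h1]; exact ne_of_lt hij)
      rw [ev_comm n σ j i, ev_comm n τ l k] at h
      exact h
    · by_cases h2 : j = l
      · exact upper n σ τ i j k l (ne_of_gt hij) (ne_of_gt hkl) h1
          (by rw [h2]; exact ne_of_gt hkl) (by rw [← h2]; exact ne_of_gt hij)
      · by_cases h3 : i = l
        · have h := upper n σ τ j i k l (ne_of_lt hij) (ne_of_gt hkl)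
            (by
              have h4 : k < j := lt_trans (h3 ▸ hkl) hij
              exact ne_of_gt h4)
            h1 (fun h => h2 h.symm)
          rw [ev_comm n σ j i] at h
          exact h
        · by_cases h4 : j = k
          · have h := upper n σ τ i j l k (ne_of_gt hij) (ne_of_lt hkl) h3 h2
              (fun h => h1 h.symm)
            rw [ev_comm n τ l k] at h
            exact h
          · exact upper n σ τ i j k l (ne_of_gt hij) (ne_of_gt hkl) h1 h4
              (fun h => h3 h.symm)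

theorem det_zero_of_rows {n : ℕ} (B : Matrix (Fin n) (Fin n) Bool) (σ : Bool) (i j : Fin n)
    (hij : i ≠ j) (h : ∀ m, B i m = Bool.xor (B j m) σ) : (signMat B).det = 0 := by
  cases σ
  · apply Matrix.det_zero_of_row_eq hij
    funext m
    simp only [signMat, Matrix.of_apply]
    rw [h m, Bool.xor_false]
  · rw [← Matrix.det_updateRow_add_smul_self (signMat B) hij 1]
    apply Matrix.det_eq_zero_of_row_eq_zero i
    intro m
    rw [Matrix.updateRow_self]
    simp only [signMat, Pi.add_apply, Pi.smul_apply, Matrix.of_apply, smul_eq_mul, one_mul]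
    rw [h m]
    cases B j m <;> simp

theorem chain (n : ℕ) (hn : 4 ≤ n) :
    2 * (2 : ℝ) ^ (n - 4) * (((n : ℝ) * (n - 1)) * ((symm n).card : ℝ))
        - 16 * (((n : ℝ) * (n - 1)) * (((n : ℝ) * (n - 1)) * ((symm n).card : ℝ)))
      ≤ 32 * ((2 : ℝ) ^ (n - 4)) ^ 2 *
        (((symm n).filter (fun B => (signMat B).det = 0)).card : ℝ) := by
  classical
  have hbon := bonferroni (symm n) (events n)
    (fun c B => ∀ m, B c.1.1 m = Bool.xor (B c.1.2 m) c.2)
  have hsub : (symm n).filter
      (fun B => ∃ c ∈ events n, ∀ m, B c.1.1 m = Bool.xor (B c.1.2 m) c.2)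
      ⊆ (symm n).filter (fun B => (signMat B).det = 0) := by
    intro B hB
    rw [Finset.mem_filter] at hB ⊢
    refine ⟨hB.1, ?_⟩
    obtain ⟨c, hc, hrow⟩ := hB.2
    have hne : c.1.1 ≠ c.1.2 :=
      ne_of_lt (Finset.mem_filter.1 (Finset.mem_product.1 hc).1).2
    exact det_zero_of_rows B c.2 c.1.1 c.1.2 hne hrow
  have hUn := Finset.card_le_card hsub
  have hUnDz : (((symm n).filter
      (fun B => ∃ c ∈ events n, ∀ m, B c.1.1 m = Bool.xor (B c.1.2 m) c.2)).card : ℝ)
      ≤ (((symm n).filter (fun B => (signMat B).det = 0)).card : ℝ) := by exact_mod_cast hUn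
  have hbonR : 2 * ∑ c ∈ events n,
        (((symm n).filter (fun B => ∀ m, B c.1.1 m = Bool.xor (B c.1.2 m) c.2)).card : ℝ)
      ≤ 2 * (((symm n).filter
          (fun B => ∃ c ∈ events n, ∀ m, B c.1.1 m = Bool.xor (B c.1.2 m) c.2)).card : ℝ)
        + ∑ c ∈ events n, ∑ d ∈ (events n).erase c,
        (((symm n).filter
          (fun B => (∀ m, B c.1.1 m = Bool.xor (B c.1.2 m) c.2) ∧
            (∀ m, B d.1.1 m = Bool.xor (B d.1.2 m) d.2))).card : ℝ) := by
    exact_mod_cast hbon
  have hMv : ((events n).card : ℝ) = (n : ℝ) * (n - 1) := by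
    rw [card_events]
    have h1 : 1 ≤ n := by omega
    push_cast [Nat.cast_sub h1]
    ring
  set s : ℝ := ((symm n).card : ℝ) with hsdef
  set Un : ℝ := (((symm n).filter
      (fun B => ∃ c ∈ events n, ∀ m, B c.1.1 m = Bool.xor (B c.1.2 m) c.2)).card : ℝ)
    with hUndef
  set Dz : ℝ := (((symm n).filter (fun B => (signMat B).det = 0)).card : ℝ) with hDzdef
  set T : ℝ := (2 : ℝ) ^ (n - 4) with hTdef
  have hs0 : 0 ≤ s := Nat.cast_nonneg _
  have hTpos : 0 < T := by positivity
  have h2n : (2 : ℝ) ^ n = 16 * T := by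
    have h1 : n = (n - 4) + 4 := by omega
    rw [hTdef]
    conv_lhs => rw [h1, pow_add]
    ring
  have hE : ((events n).card : ℝ) * s ≤ 16 * T * ∑ c ∈ events n,
        (((symm n).filter (fun B => ∀ m, B c.1.1 m = Bool.xor (B c.1.2 m) c.2)).card : ℝ) := by
    rw [Finset.mul_sum]
    have h1 : ∑ _c ∈ events n, s ≤ ∑ c ∈ events n, 16 * T *
        (((symm n).filter (fun B => ∀ m, B c.1.1 m = Bool.xor (B c.1.2 m) c.2)).card : ℝ) := by
      refine Finset.sum_le_sum fun c hc => ?_
      have hne : c.1.1 ≠ c.1.2 :=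
        ne_of_lt (Finset.mem_filter.1 (Finset.mem_product.1 hc).1).2
      have h2 : ((symm n).card : ℝ)
          ≤ (((symm n).filter
            (fun B => ∀ m, B c.1.1 m = Bool.xor (B c.1.2 m) c.2)).card : ℝ) * (2 : ℝ) ^ n := by
        exact_mod_cast lower n c.2 c.1.1 c.1.2 hne
      rw [h2n] at h2
      linarith
    rw [Finset.sum_const, nsmul_eq_mul] at h1
    exact h1
  have hX : T ^ 2 * ∑ c ∈ events n, ∑ d ∈ (events n).erase c,
        (((symm n).filter
          (fun B => (∀ m, B c.1.1 m = Bool.xor (B c.1.2 m) c.2) ∧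
            (∀ m, B d.1.1 m = Bool.xor (B d.1.2 m) d.2))).card : ℝ)
      ≤ ((events n).card : ℝ) * (((events n).card : ℝ) * s) := by
    rw [Finset.mul_sum]
    have h1 : ∀ c ∈ events n, T ^ 2 * ∑ d ∈ (events n).erase c,
        (((symm n).filter
          (fun B => (∀ m, B c.1.1 m = Bool.xor (B c.1.2 m) c.2) ∧
            (∀ m, B d.1.1 m = Bool.xor (B d.1.2 m) d.2))).card : ℝ)
        ≤ ((events n).card : ℝ) * s := by
      intro c hc
      rw [Finset.mul_sum]
      have h2 : ∀ d ∈ (events n).erase c, T ^ 2 * (((symm n).filter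
          (fun B => (∀ m, B c.1.1 m = Bool.xor (B c.1.2 m) c.2) ∧
            (∀ m, B d.1.1 m = Bool.xor (B d.1.2 m) d.2))).card : ℝ) ≤ s := by
        intro d hd
        have h3 := pair_upper n c d hc (Finset.mem_of_mem_erase hd) (Finset.ne_of_mem_erase hd)
        have h4 : (((symm n).filter
          (fun B => (∀ m, B c.1.1 m = Bool.xor (B c.1.2 m) c.2) ∧
            (∀ m, B d.1.1 m = Bool.xor (B d.1.2 m) d.2))).card : ℝ)
            * ((2 : ℝ) ^ (n - 4)) ^ 2 ≤ ((symm n).card : ℝ) := by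
          exact_mod_cast h3
        rw [mul_comm]
        exact h4
      have h5 := Finset.sum_le_sum h2
      rw [Finset.sum_const, nsmul_eq_mul] at h5
      have h6 : (((events n).erase c).card : ℝ) ≤ ((events n).card : ℝ) := by
        exact_mod_cast Finset.card_le_card (Finset.erase_subset c (events n))
      calc _ ≤ (((events n).erase c).card : ℝ) * s := h5
        _ ≤ ((events n).card : ℝ) * s := mul_le_mul_of_nonneg_right h6 hs0
    have h7 := Finset.sum_le_sum h1
    rw [Finset.sum_const, nsmul_eq_mul] at h7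
    exact h7
  rw [hMv] at hE hX
  set E : ℝ := ∑ c ∈ events n,
    (((symm n).filter (fun B => ∀ m, B c.1.1 m = Bool.xor (B c.1.2 m) c.2)).card : ℝ)
    with hEdef
  set X : ℝ := ∑ c ∈ events n, ∑ d ∈ (events n).erase c,
    (((symm n).filter
      (fun B => (∀ m, B c.1.1 m = Bool.xor (B c.1.2 m) c.2) ∧
        (∀ m, B d.1.1 m = Bool.xor (B d.1.2 m) d.2))).card : ℝ) with hXdef
  have h1 : 32 * T ^ 2 * E ≤ 32 * T ^ 2 * Un + 16 * T ^ 2 * X := by
    have h2 : 0 ≤ 16 * T ^ 2 := by positivity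
    nlinarith [mul_le_mul_of_nonneg_left hbonR h2]
  have h3 : 2 * T * (((n : ℝ) * (n - 1)) * s) ≤ 32 * T ^ 2 * E := by
    nlinarith [mul_le_mul_of_nonneg_left hE (by positivity : (0 : ℝ) ≤ 2 * T)]
  have h4 : 16 * T ^ 2 * X ≤ 16 * (((n : ℝ) * (n - 1)) * (((n : ℝ) * (n - 1)) * s)) := by
    linarith
  have h5 : 32 * T ^ 2 * Un ≤ 32 * T ^ 2 * Dz :=
    mul_le_mul_of_nonneg_left hUnDz (by positivity)
  linarith

theorem sharp (n : ℕ) (hn : 4 ≤ n) :
    ((n : ℝ) * (n - 1)) / 2 ^ n * (1 - 128 * ((n : ℝ) * (n - 1)) / 2 ^ n) ≤ q n := by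
  have hch := chain n hn
  have hs : 0 < (symm n).card :=
    Finset.card_pos.2 ⟨Matrix.of fun _ _ => true, (mem_symm _).2 fun i j => rfl⟩
  have hspos : (0 : ℝ) < ((symm n).card : ℝ) := by exact_mod_cast hs
  have hTpos : (0 : ℝ) < (2 : ℝ) ^ (n - 4) := by positivity
  have h2n : (2 : ℝ) ^ n = 16 * (2 : ℝ) ^ (n - 4) := by
    have h1 : n = (n - 4) + 4 := by omega
    conv_lhs => rw [h1, pow_add]
    ring
  unfold q
  rw [le_div_iff₀ hspos, h2n]
  have e1 : (n : ℝ) * (n - 1) / (16 * (2 : ℝ) ^ (n - 4)) *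
      (1 - 128 * ((n : ℝ) * (n - 1)) / (16 * (2 : ℝ) ^ (n - 4))) * ((symm n).card : ℝ)
      = (2 * (2 : ℝ) ^ (n - 4) * (((n : ℝ) * (n - 1)) * ((symm n).card : ℝ))
        - 16 * (((n : ℝ) * (n - 1)) * (((n : ℝ) * (n - 1)) * ((symm n).card : ℝ))))
        / (32 * ((2 : ℝ) ^ (n - 4)) ^ 2) := by
    field_simp
    ring
  rw [e1, div_le_iff₀ (by positivity)]
  linarith

theorem pow_bound : ∀ k : ℕ, (k + 16) * (k + 15) * 256 ≤ 2 ^ (k + 16) := by
  intro k
  induction k with
  | zero => norm_num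
  | succ k ih =>
    have h1 : (k + 1 + 16) * (k + 1 + 15) * 256 ≤ 2 * ((k + 16) * (k + 15) * 256) := by
      nlinarith
    calc (k + 1 + 16) * (k + 1 + 15) * 256 ≤ 2 * ((k + 16) * (k + 15) * 256) := h1
      _ ≤ 2 * 2 ^ (k + 16) := Nat.mul_le_mul_left _ ih
      _ = 2 ^ (k + 1 + 16) := by ring

theorem clean (n : ℕ) (hn : 16 ≤ n) : ((n : ℝ) * (n - 1)) / 2 ^ (n + 1) ≤ q n := by
  have hsh := sharp n (by omega)
  have hA0 : (0 : ℝ) ≤ (n : ℝ) * (n - 1) := by
    have h1 : (1 : ℝ) ≤ n := by exact_mod_cast (by omega : 1 ≤ n)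
    nlinarith
  have hb : 256 * ((n : ℝ) * (n - 1)) ≤ (2 : ℝ) ^ n := by
    obtain ⟨k, rfl⟩ : ∃ k, n = k + 16 := ⟨n - 16, by omega⟩
    have h1 := pow_bound k
    have h3 : (((k + 16) * (k + 15) * 256 : ℕ) : ℝ) ≤ ((2 ^ (k + 16) : ℕ) : ℝ) := by
      exact_mod_cast h1
    push_cast at h3 ⊢
    linarith
  have h2pos : (0 : ℝ) < (2 : ℝ) ^ n := by positivity
  have hhalf : (1 : ℝ) / 2 ≤ 1 - 128 * ((n : ℝ) * (n - 1)) / 2 ^ n := by
    have h1 : 128 * ((n : ℝ) * (n - 1)) / 2 ^ n ≤ 1 / 2 := by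
      rw [div_le_div_iff₀ h2pos (by norm_num)]
      linarith
    linarith
  have h3 : ((n : ℝ) * (n - 1)) / 2 ^ (n + 1) = ((n : ℝ) * (n - 1)) / 2 ^ n * (1 / 2) := by
    rw [pow_succ]
    field_simp
  rw [h3]
  exact le_trans (mul_le_mul_of_nonneg_left hhalf (div_nonneg hA0 h2pos.le)) hsh

/-- Lower bounds for the singularity probability of symmetric random sign matrices that
improve the bound two to the minus n by a factor of order n squared. -/
theorem result :
    (∀ n : ℕ, 4 ≤ n →
      ((n : ℝ) * (n - 1)) / 2 ^ n * (1 - 128 * ((n : ℝ) * (n - 1)) / 2 ^ n) ≤ q n) ∧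
    (∀ n : ℕ, 16 ≤ n → ((n : ℝ) * (n - 1)) / 2 ^ (n + 1) ≤ q n) :=
  ⟨sharp, clean⟩

end Vale.Agent.Results.P160.RowPairLowerBound
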